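import Vale.Agent.P015.R2.H210.Cv
import Vale.Agent.P015.R2.H634.UbMain

/-! Adapters for the coupling theorem. -/

namespace Vale.Agent.P015.R2.H116

open Finset Vale.Agent.P001 Vale.Agent.P006.CLS Vale.Agent.P015.H222

theorem c1_le {W : Finset (ℤ × ℤ)} {K : ℕ} {Λ : ℝ} (hW : Cv W K Λ) :
    16 * H210.C1 * Λ ^ 2 ≤ Λ ^ 9 := by
  have h := H210.C1_le hW
  have h1 := hW.ten
  have h2 : 0 < Λ ^ 8 := by positivity
  calc 16 * H210.C1 * Λ ^ 2 = 8 * (2 * H210.C1 * Λ ^ 2) := by ring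
    _ ≤ 8 * Λ ^ 8 := by linarith
    _ ≤ Λ ^ 8 * Λ := by nlinarith
    _ = Λ ^ 9 := by ring

open Classical in
theorem pos_torus {W : Finset (ℤ × ℤ)} {K : ℕ} {Λ : ℝ} (hW : Cv W K Λ) (k : ℕ) {r : ℝ}
    (hr : 2 ≤ r) (hrK : 16 * r ≤ K) {ι : Type} (R : Finset ι) (s : ι → ℂ) (e : ι → ℝ)
    (he : ∀ i ∈ R, 0 ≤ e i) :
    (∑ i ∈ R, e i * hh W (s i) ^ (k + 1)) ^ 2 ≤ Λ ^ 9 * r *
      ∑ p ∈ (R ×ˢ R).filter (fun p => ∃ z : GaussianInt,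
        ‖s p.1 - s p.2 - GaussianInt.toComplex z‖ ≤ 2 / r),
        e p.1 * e p.2 * hh W (s p.1 - s p.2) ^ k := by
  have h := H210.pos_torus hW k hr hrK R s e he
  refine h.trans ?_
  have h1 := c1_le hW
  have h3 : (0 : ℝ) ≤ H210.C1 := by linarith [H210.one_le_C1]
  have h4 : 0 ≤ H210.C1 * Λ ^ 2 := by positivity
  refine mul_le_mul_of_nonneg_right (mul_le_mul_of_nonneg_right (by linarith) (by linarith)) ?_
  refine Finset.sum_nonneg fun p hp => ?_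
  rw [Finset.mem_filter, Finset.mem_product] at hp
  exact mul_nonneg (mul_nonneg (he _ hp.1.1) (he _ hp.1.2)) (pow_nonneg (H210.hhc_nonneg _ _) _)

theorem pos_ball {W : Finset (ℤ × ℤ)} {K : ℕ} {Λ : ℝ} (hW : Cv W K Λ) (k : ℕ) {r δ : ℝ}
    (hr : 2 ≤ r) (hrK : 16 * r ≤ K) (hδ : δ ≤ 1 / 4) (hrδ : 1 ≤ r * δ) {ι : Type} (R : Finset ι)
    (s : ι → ℂ) (hs : ∀ i ∈ R, ‖s i‖ ≤ δ) (e : ι → ℝ) (he : ∀ i ∈ R, 0 ≤ e i) :
    (∑ i ∈ R, e i * hh W (s i) ^ (k + 1)) ^ 2 ≤ Λ ^ 9 * (r * δ) *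
      ∑ p ∈ (R ×ˢ R).filter (fun p => ‖s p.1 - s p.2‖ ≤ 2 / r),
        e p.1 * e p.2 * hh W (s p.1 - s p.2) ^ k := by
  classical
  have hr0 : 0 < r := by linarith
  have h := H210.pos_ball hW k hr hrK (δ₁ := δ) (by linarith)
    (by rw [div_le_iff₀ hr0]; linarith) R s e he hs
  refine h.trans ?_
  have h1 := c1_le hW
  refine mul_le_mul_of_nonneg_right (mul_le_mul_of_nonneg_right h1 (by linarith)) ?_
  refine Finset.sum_nonneg fun p hp => ?_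
  rw [Finset.mem_filter, Finset.mem_product] at hp
  exact mul_nonneg (mul_nonneg (he _ hp.1.1) (he _ hp.1.2)) (pow_nonneg (H210.hhc_nonneg _ _) _)

end Vale.Agent.P015.R2.H116
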