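import Vale.Agent.P015.R2.H116.Defs

/-! Basic facts for the coupling theorem. -/

namespace Vale.Agent.P015.R2.H116

open Finset Vale.Agent.P001 Vale.Agent.P006.CLS Vale.Agent.P015.H222
open scoped ComplexConjugate

theorem e2_int (k l : ℤ) (w : ℤ × ℤ) : e2 k l w = 1 := by
  rw [e2]
  have : (w.1 : ℝ) * k + w.2 * l = ((w.1 * k + w.2 * l : ℤ) : ℝ) := by push_cast; ring
  rw [this, ee_int]

theorem e2_shift (x y : ℝ) (k l : ℤ) (w : ℤ × ℤ) : e2 (x - k) (y - l) w = e2 x y w := by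
  rw [e2_sub_freq, e2_int]
  simp

theorem hg_shift (W : Finset (ℤ × ℤ)) (x y : ℝ) (k l : ℤ) : hg W (x - k) (y - l) = hg W x y := by
  rw [hg, hg]
  exact Finset.sum_congr rfl fun w _ => e2_shift x y k l w

theorem hc_shift (W : Finset (ℤ × ℤ)) (s : ℂ) (z : GaussianInt) :
    hc W (s - GaussianInt.toComplex z) = hc W s := by
  have h1 : (s - GaussianInt.toComplex z).re = s.re - ((z.re : ℤ) : ℝ) := by simp
  have h2 : -(s - GaussianInt.toComplex z).im = -s.im - ((-z.im : ℤ) : ℝ) := by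
    simp
    ring
  rw [hc, hc, h1, h2, hg_shift]

theorem hh_shift (W : Finset (ℤ × ℤ)) (s : ℂ) (z : GaussianInt) :
    hh W (s - GaussianInt.toComplex z) = hh W s := by
  rw [hh, hh, hc_shift]

theorem hh_nonneg (W : Finset (ℤ × ℤ)) (s : ℂ) : 0 ≤ hh W s := by
  rw [hh]; positivity

theorem norm_hc_le (W : Finset (ℤ × ℤ)) (s : ℂ) : ‖hc W s‖ ≤ W.card := norm_hg_le _ _ _

theorem hh_le_one (W : Finset (ℤ × ℤ)) (s : ℂ) : hh W s ≤ 1 := by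
  rw [hh]
  rcases Nat.eq_zero_or_pos W.card with h | h
  · rw [h]; simp
  · have h1 : (0 : ℝ) < W.card := by exact_mod_cast h
    rw [div_le_one (by positivity)]
    exact pow_le_pow_left₀ (norm_nonneg _) (norm_hc_le W s) 2

theorem hh_neg (W : Finset (ℤ × ℤ)) (s : ℂ) : hh W (-s) = hh W s := by
  rw [hh, hh, hc, hc, Complex.neg_re, Complex.neg_im, hg_neg, Complex.norm_conj]

/-- power mean -/
theorem power8 {ι : Type*} (I : Finset ι) (f : ι → ℝ) (hf : ∀ i ∈ I, 0 ≤ f i) {Λ : ℝ}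
    (hI : 0 < I.card) (hΛ : 0 < Λ) (h : (I.card : ℝ) ≤ Λ * ∑ i ∈ I, f i) :
    (I.card : ℝ) ≤ Λ ^ 8 * ∑ i ∈ I, f i ^ 8 := by
  have hN : (0 : ℝ) < I.card := by exact_mod_cast hI
  have h2 := pow_sum_div_card_le_sum_pow (s := I) (f := f) (fun i hi => hf i hi) 7
  rw [div_le_iff₀ (by positivity)] at h2
  have h3 : (I.card : ℝ) ^ 8 ≤ (Λ * ∑ i ∈ I, f i) ^ 8 := pow_le_pow_left₀ hN.le h 8
  rw [mul_pow] at h3
  have h4 : (I.card : ℝ) ^ 8 ≤ Λ ^ 8 * ((∑ i ∈ I, f i ^ 8) * (I.card : ℝ) ^ 7) :=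
    h3.trans (mul_le_mul_of_nonneg_left h2 (by positivity))
  have h5 : (I.card : ℝ) * (I.card : ℝ) ^ 7 ≤ (Λ ^ 8 * ∑ i ∈ I, f i ^ 8) * (I.card : ℝ) ^ 7 := by
    calc (I.card : ℝ) * (I.card : ℝ) ^ 7 = (I.card : ℝ) ^ 8 := by ring
      _ ≤ _ := h4
      _ = _ := by ring
  exact le_of_mul_le_mul_right h5 (by positivity)

/-- rearrangement of a sum over pairs of pairs -/
theorem sum_pairs {A B : Finset GaussianInt}
    (F : GaussianInt → GaussianInt → GaussianInt × GaussianInt → ℝ) :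
    ∑ p ∈ (A ×ˢ B) ×ˢ (A ×ˢ B), F p.1.1 p.2.1 (p.1.2, p.2.2) =
      ∑ π ∈ A, ∑ π' ∈ A, ∑ d ∈ B ×ˢ B, F π π' d := by
  rw [Finset.sum_product, Finset.sum_product]
  refine Finset.sum_congr rfl fun π _ => ?_
  simp_rw [Finset.sum_product]
  rw [Finset.sum_comm]

/-- Gaussian integers of norm at most `2 T` -/
noncomputable def BT (T : ℝ) : Finset GaussianInt :=
  (((Icc (-⌊2 * T⌋) ⌊2 * T⌋) ×ˢ (Icc (-⌊2 * T⌋) ⌊2 * T⌋)).image
    (fun u : ℤ × ℤ => (⟨u.1, u.2⟩ : GaussianInt))).filter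
    (fun M => M ≠ 0 ∧ ‖GaussianInt.toComplex M‖ ≤ 2 * T)

theorem mem_BT {T : ℝ} {M : GaussianInt} (h0 : M ≠ 0)
    (h : ‖GaussianInt.toComplex M‖ ≤ 2 * T) : M ∈ BT T := by
  rw [BT, Finset.mem_filter, Finset.mem_image]
  have h1 := (Complex.abs_re_le_norm (GaussianInt.toComplex M)).trans h
  have h2 := (Complex.abs_im_le_norm (GaussianInt.toComplex M)).trans h
  rw [← GaussianInt.intCast_re] at h1
  rw [← GaussianInt.intCast_im] at h2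
  have key : ∀ a : ℤ, |(a : ℝ)| ≤ 2 * T → a ∈ Icc (-⌊2 * T⌋) ⌊2 * T⌋ := by
    intro a ha
    rw [abs_le] at ha
    rw [Finset.mem_Icc]
    have h3 : a ≤ ⌊2 * T⌋ := Int.le_floor.2 ha.2
    have h4 : -a ≤ ⌊2 * T⌋ := Int.le_floor.2 (by push_cast; linarith [ha.1])
    omega
  exact ⟨⟨(M.re, M.im), Finset.mem_product.2 ⟨key _ h1, key _ h2⟩, rfl⟩, h0, h⟩

theorem of_mem_BT {T : ℝ} {M : GaussianInt} (h : M ∈ BT T) :
    M ≠ 0 ∧ ‖GaussianInt.toComplex M‖ ≤ 2 * T := (Finset.mem_filter.1 h).2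

theorem card_BT {T : ℝ} (hT : 1 ≤ T) : ((BT T).card : ℝ) ≤ 25 * T ^ 2 := by
  have h1 : (BT T).card ≤ ((Icc (-⌊2 * T⌋) ⌊2 * T⌋) ×ˢ (Icc (-⌊2 * T⌋) ⌊2 * T⌋)).card :=
    (Finset.card_filter_le _ _).trans Finset.card_image_le
  rw [Finset.card_product, Int.card_Icc] at h1
  have h2 : (0 : ℤ) ≤ ⌊2 * T⌋ := Int.floor_nonneg.2 (by linarith)
  have h3 : ((⌊2 * T⌋ + 1 - -⌊2 * T⌋).toNat : ℤ) = 2 * ⌊2 * T⌋ + 1 := by
    rw [Int.toNat_of_nonneg (by omega)]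
    ring
  have h4 : ((⌊2 * T⌋ + 1 - -⌊2 * T⌋).toNat : ℝ) = 2 * (⌊2 * T⌋ : ℝ) + 1 := by
    exact_mod_cast h3
  have h5 : ((BT T).card : ℝ) ≤ (2 * (⌊2 * T⌋ : ℝ) + 1) * (2 * (⌊2 * T⌋ : ℝ) + 1) := by
    rw [← h4]
    exact_mod_cast h1
  have h6 : (⌊2 * T⌋ : ℝ) ≤ 2 * T := Int.floor_le _
  have h7 : (0 : ℝ) ≤ (⌊2 * T⌋ : ℝ) := by exact_mod_cast h2
  nlinarith

end Vale.Agent.P015.R2.H116
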