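import Vale.Agent.P015.R2.H116.Coup1
import Vale.Agent.P015.R2.H116.Coup0

/-! First stage of the coupling theorem: one numerator `M`. -/

namespace Vale.Agent.P015.R2.H116

open Finset Vale.Agent.P001 Vale.Agent.P006.CLS Vale.Agent.P015.H222
open scoped ComplexConjugate

section

variable {Λ : ℝ} {W : Finset (ℤ × ℤ)} {K Q0 Q : ℕ} {Pi0 Pi : Finset GaussianInt}
  {α : GaussianInt → GaussianInt}

theorem Lvl.card_le (h : Lvl Λ Q Pi α) : Pi.card ≤ Q := by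
  have h1 : Pi.card ≤ (Icc (1 : ℤ) Q).card := by
    apply Finset.card_le_card_of_injOn (fun π => π.norm)
    · intro π hπ
      have h2 := h.upper π hπ
      have h3 := GaussianInt.norm_pos.2 (h.prime π hπ).ne_zero
      simp only [Finset.coe_Icc, Set.mem_Icc]
      omega
    · intro π hπ π' hπ' he
      exact h.inj π hπ π' hπ' he
  simpa using h1

open Classical in
/-- classification of the close pairs -/
theorem close_le (h0 : Lvl Λ Q0 Pi0 α) (h1 : Lvl Λ Q Pi α) (hQ : 2 * Q0 < Q) {T r : ℝ}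
    (hT1 : 1 ≤ T) (hT : 2 * T < Q0) (hr : r * T = Q0 * Q) (hr0 : 0 < r) :
    ∑ p ∈ ((Pi0 ×ˢ Pi) ×ˢ (Pi0 ×ˢ Pi)).filter (fun p => ∃ z : GaussianInt,
        ‖(th α p.1.2 - th α p.1.1) - (th α p.2.2 - th α p.2.1) - GaussianInt.toComplex z‖
          ≤ 2 / r),
        hh W ((th α p.1.2 - th α p.1.1) - (th α p.2.2 - th α p.2.1)) ^ 3 ≤
      Pi0.card * Pi.card + ∑ M ∈ BT T, ∑ π ∈ Pi0, ∑ π' ∈ Pi0.filter (fun π' => π ≠ π'),
        ∑ d ∈ EM α Pi M π π', hh W (xx M π π' d) ^ 3 := by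
  have hT0 : 0 < T := by linarith
  have hh3 : ∀ s, 0 ≤ hh W s ^ 3 := fun s => pow_nonneg (hh_nonneg W s) 3
  -- the summand of the right side
  set G : GaussianInt → GaussianInt → GaussianInt → GaussianInt × GaussianInt → ℝ :=
    fun M π π' d => if π ≠ π' ∧ d ∈ EM α Pi M π π' then hh W (xx M π π' d) ^ 3 else 0 with hG
  have hG0 : ∀ M π π' d, 0 ≤ G M π π' d := by
    intro M π π' d
    simp only [hG]
    split_ifs
    · exact hh3 _
    · exact le_rfl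
  have hrhs : ∑ M ∈ BT T, ∑ π ∈ Pi0, ∑ π' ∈ Pi0.filter (fun π' => π ≠ π'),
        ∑ d ∈ EM α Pi M π π', hh W (xx M π π' d) ^ 3 =
      ∑ p ∈ (Pi0 ×ˢ Pi) ×ˢ (Pi0 ×ˢ Pi), ∑ M ∈ BT T, G M p.1.1 p.2.1 (p.1.2, p.2.2) := by
    rw [Finset.sum_comm (s := (Pi0 ×ˢ Pi) ×ˢ (Pi0 ×ˢ Pi))]
    refine Finset.sum_congr rfl fun M _ => ?_
    rw [sum_pairs (fun π π' d => G M π π' d)]
    refine Finset.sum_congr rfl fun π _ => ?_
    rw [Finset.sum_filter]
    refine Finset.sum_congr rfl fun π' _ => ?_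
    by_cases hne : π ≠ π'
    · rw [if_pos hne]
      have hEM : EM α Pi M π π' = (Pi ×ˢ Pi).filter (fun d => d ∈ EM α Pi M π π') := by
        ext d
        rw [Finset.mem_filter]
        constructor
        · intro hd
          exact ⟨(Finset.mem_filter.1 hd).1, hd⟩
        · exact fun hd => hd.2
      rw [hEM, Finset.sum_filter]
      refine Finset.sum_congr rfl fun d _ => ?_
      simp only [hG]
      by_cases hd : d ∈ EM α Pi M π π'
      · rw [if_pos hd, if_pos ⟨hne, hd⟩]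
      · rw [if_neg hd, if_neg (fun h => hd h.2)]
    · rw [if_neg hne]
      symm
      refine Finset.sum_eq_zero fun d _ => ?_
      simp only [hG]
      rw [if_neg (fun h => hne h.1)]
  have hdiag : ∑ p ∈ (Pi0 ×ˢ Pi) ×ˢ (Pi0 ×ˢ Pi), (if p.1 = p.2 then (1 : ℝ) else 0) =
      Pi0.card * Pi.card := by
    rw [Finset.sum_product]
    have : ∀ i ∈ Pi0 ×ˢ Pi, ∑ j ∈ Pi0 ×ˢ Pi, (if i = j then (1 : ℝ) else 0) = 1 := by
      intro i hi
      rw [Finset.sum_ite_eq, if_pos hi]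
    rw [Finset.sum_congr rfl this, Finset.sum_const, Finset.card_product, nsmul_eq_mul, mul_one]
    push_cast
    ring
  rw [hrhs, ← hdiag, ← Finset.sum_add_distrib]
  refine le_trans (Finset.sum_le_sum fun p hp => ?_)
    (Finset.sum_le_sum_of_subset_of_nonneg (Finset.filter_subset _ _) fun p _ _ => ?_)
  · rw [Finset.mem_filter, Finset.mem_product, Finset.mem_product, Finset.mem_product] at hp
    obtain ⟨⟨⟨hp1, hp2⟩, hp3, hp4⟩, z, hz⟩ := hp
    have hx : ‖(th α p.1.2 - th α p.1.1) - (th α p.2.2 - th α p.2.1) -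
        GaussianInt.toComplex z‖ * (Q0 * Q) ≤ 2 * T := by
      rw [← hr]
      calc _ ≤ 2 / r * (r * T) := mul_le_mul_of_nonneg_right hz (by positivity)
        _ = 2 * T := by field_simp
    rcases H634.ari_M h0 h1 hQ hT hp1 hp3 hp2 hp4 hx with h | ⟨hne, hne', M, hM0, hMT, hMx⟩
    · rw [if_pos (Prod.ext h.1 h.2)]
      have h2 : 0 ≤ ∑ M ∈ BT T, G M p.1.1 p.2.1 (p.1.2, p.2.2) :=
        Finset.sum_nonneg fun M _ => hG0 _ _ _ _
      have h3 : hh W ((th α p.1.2 - th α p.1.1) - (th α p.2.2 - th α p.2.1)) ^ 3 ≤ 1 :=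
        pow_le_one₀ (hh_nonneg W _) (hh_le_one W _)
      linarith
    · have hEM : (p.1.2, p.2.2) ∈ EM α Pi M p.1.1 p.2.1 := by
        rw [EM, Finset.mem_filter, Finset.mem_product]
        exact ⟨⟨hp2, hp4⟩, hne', z, hMx⟩
      have h2 : G M p.1.1 p.2.1 (p.1.2, p.2.2) ≤ ∑ M ∈ BT T, G M p.1.1 p.2.1 (p.1.2, p.2.2) :=
        Finset.single_le_sum (f := fun M => G M p.1.1 p.2.1 (p.1.2, p.2.2))
          (fun M _ => hG0 _ _ _ _) (mem_BT hM0 hMT)
      have h3 : G M p.1.1 p.2.1 (p.1.2, p.2.2) =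
          hh W ((th α p.1.2 - th α p.1.1) - (th α p.2.2 - th α p.2.1)) ^ 3 := by
        simp only [hG]
        rw [if_pos ⟨hne, hEM⟩, ← hMx, hh_shift]
      have h4 : (0 : ℝ) ≤ (if p.1 = p.2 then (1 : ℝ) else 0) := by split_ifs <;> norm_num
      linarith
  · have h2 : 0 ≤ ∑ M ∈ BT T, G M p.1.1 p.2.1 (p.1.2, p.2.2) :=
      Finset.sum_nonneg fun M _ => hG0 _ _ _ _
    have h4 : (0 : ℝ) ≤ (if p.1 = p.2 then (1 : ℝ) else 0) := by split_ifs <;> norm_num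
    linarith

/-- **Stage 1.** One numerator `M` occurs for many quadruples. -/
theorem stage1 (hW : Cv W K Λ) (hne : W.Nonempty) (h0 : Lvl Λ Q0 Pi0 α) (h1 : Lvl Λ Q Pi α)
    (hQ : 2 * Q0 < Q) (hT : 4 * Λ ^ 27 < Q0) (hK : 16 * (Q0 * Q) ≤ K)
    (hcoup : (W.card : ℝ) * Pi0.card * Pi.card ≤
      Λ * ∑ π ∈ Pi0, ∑ ρ ∈ Pi, ‖hc W (th α ρ - th α π)‖) :
    ∃ M : GaussianInt, M ≠ 0 ∧ ‖GaussianInt.toComplex M‖ ≤ 4 * Λ ^ 27 ∧
      ((Q0 : ℝ) * Q) ≤ 100 * Λ ^ 56 * ∑ π ∈ Pi0, ∑ π' ∈ Pi0.filter (fun π' => π ≠ π'),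
        ∑ d ∈ EM α Pi M π π', hh W (xx M π π' d) ^ 3 := by
  classical
  have hΛ := hW.ten
  have hΛ0 : 0 < Λ := by linarith
  have hΛ27 : (1 : ℝ) ≤ Λ ^ 27 := one_le_pow₀ (by linarith)
  set T : ℝ := 2 * Λ ^ 27 with hTdef
  have hT1 : 1 ≤ T := by linarith
  have hT0 : 0 < T := by linarith
  have hn : (0 : ℝ) < W.card := by exact_mod_cast hne.card_pos
  have hQ0pos : (0 : ℝ) < Q0 := by linarith
  have hQpos : (0 : ℝ) < Q := by
    have : (2 : ℝ) * Q0 < Q := by exact_mod_cast hQ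
    linarith
  have hPi0 : (0 : ℝ) < Pi0.card := by
    have := h0.many
    by_contra hcon
    have h2 : (Pi0.card : ℝ) = 0 := le_antisymm (not_lt.1 hcon) (Nat.cast_nonneg _)
    rw [h2] at this
    linarith
  have hPi : (0 : ℝ) < Pi.card := by
    have := h1.many
    by_contra hcon
    have h2 : (Pi.card : ℝ) = 0 := le_antisymm (not_lt.1 hcon) (Nat.cast_nonneg _)
    rw [h2] at this
    linarith
  set N : ℝ := (Pi0.card : ℝ) * Pi.card with hN
  have hN0 : 0 < N := mul_pos hPi0 hPi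
  set I := Pi0 ×ˢ Pi with hI
  have hIc : (I.card : ℝ) = N := by rw [hI, Finset.card_product]; push_cast; rfl
  set s : GaussianInt × GaussianInt → ℂ := fun i => th α i.2 - th α i.1 with hs
  -- fourth moment
  have h8 : N ≤ Λ ^ 8 * ∑ i ∈ I, hh W (s i) ^ 4 := by
    have h2 := power8 I (fun i => ‖hc W (s i)‖ / W.card)
      (fun i _ => div_nonneg (norm_nonneg _) hn.le) (Λ := Λ)
      (by
        have : (0 : ℝ) < I.card := by rw [hIc]; exact hN0
        exact_mod_cast this) hΛ0 (by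
        rw [hIc, ← Finset.sum_div, hI, Finset.sum_product, mul_div_assoc', le_div_iff₀ hn]
        calc N * W.card = (W.card : ℝ) * Pi0.card * Pi.card := by rw [hN]; ring
          _ ≤ _ := hcoup)
    rw [hIc] at h2
    refine h2.trans (le_of_eq ?_)
    congr 1
    refine Finset.sum_congr rfl fun i _ => ?_
    rw [hh]
    ring
  set r : ℝ := Q0 * Q / T with hr
  have hr0 : 0 < r := by positivity
  have hrT : r * T = Q0 * Q := by rw [hr]; field_simp
  have hr2 : 2 ≤ r := by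
    rw [hr, le_div_iff₀ hT0]
    have h3 : (1 : ℝ) ≤ Q := by
      have : (2 : ℝ) * Q0 < Q := by exact_mod_cast hQ
      linarith
    nlinarith
  have hrK : 16 * r ≤ K := by
    have h3 : r ≤ Q0 * Q := by
      rw [hr, div_le_iff₀ hT0]
      have : 0 ≤ (Q0 : ℝ) * Q := by positivity
      nlinarith
    have h4 : 16 * ((Q0 : ℝ) * Q) ≤ K := by exact_mod_cast hK
    linarith
  have hpt := pos_torus hW 3 hr2 hrK I s (fun _ => 1) (fun _ _ => zero_le_one)
  simp only [one_mul] at hpt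
  have hcl := close_le (W := W) h0 h1 hQ hT1 (by linarith) hrT hr0
  set S := ∑ M ∈ BT T, ∑ π ∈ Pi0, ∑ π' ∈ Pi0.filter (fun π' => π ≠ π'),
        ∑ d ∈ EM α Pi M π π', hh W (xx M π π' d) ^ 3 with hS
  have hpt2 : (∑ i ∈ I, hh W (s i) ^ 4) ^ 2 ≤ Λ ^ 9 * r * (N + S) :=
    hpt.trans (mul_le_mul_of_nonneg_left hcl (by positivity))
  have hNN : N ^ 2 ≤ Λ ^ 25 * r * (N + S) := by
    have h3 : N ^ 2 ≤ (Λ ^ 8 * ∑ i ∈ I, hh W (s i) ^ 4) ^ 2 := pow_le_pow_left₀ hN0.le h8 2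
    calc N ^ 2 ≤ (Λ ^ 8 * ∑ i ∈ I, hh W (s i) ^ 4) ^ 2 := h3
      _ = Λ ^ 16 * (∑ i ∈ I, hh W (s i) ^ 4) ^ 2 := by ring
      _ ≤ Λ ^ 16 * (Λ ^ 9 * r * (N + S)) := mul_le_mul_of_nonneg_left hpt2 (by positivity)
      _ = _ := by ring
  have hNQ : (Q0 : ℝ) * Q ≤ Λ ^ 2 * N := by
    calc (Q0 : ℝ) * Q ≤ (Λ * Pi0.card) * (Λ * Pi.card) :=
          mul_le_mul h0.many h1.many hQpos.le (by positivity)
      _ = Λ ^ 2 * N := by rw [hN]; ring
  have hNS : N ≤ S := by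
    have h3 : N ^ 2 * T ≤ Λ ^ 27 * N * (N + S) := by
      calc N ^ 2 * T ≤ (Λ ^ 25 * r * (N + S)) * T := mul_le_mul_of_nonneg_right hNN hT0.le
        _ = Λ ^ 25 * (r * T) * (N + S) := by ring
        _ = Λ ^ 25 * (Q0 * Q) * (N + S) := by rw [hrT]
        _ ≤ Λ ^ 25 * (Λ ^ 2 * N) * (N + S) := by
          refine mul_le_mul_of_nonneg_right (mul_le_mul_of_nonneg_left hNQ (by positivity)) ?_
          have : 0 ≤ S := Finset.sum_nonneg fun _ _ => Finset.sum_nonneg fun _ _ =>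
            Finset.sum_nonneg fun _ _ => Finset.sum_nonneg fun _ _ =>
              pow_nonneg (hh_nonneg W _) 3
          linarith
        _ = _ := by ring
    have h4 : (Λ ^ 27 * N) * (2 * N) ≤ (Λ ^ 27 * N) * (N + S) := by
      calc (Λ ^ 27 * N) * (2 * N) = N ^ 2 * T := by rw [hTdef]; ring
        _ ≤ _ := h3
    have h5 := le_of_mul_le_mul_left h4 (by positivity)
    linarith
  -- pigeonhole
  obtain ⟨M, hM, hMS⟩ : ∃ M ∈ BT T, N ≤ 25 * T ^ 2 * ∑ π ∈ Pi0,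
      ∑ π' ∈ Pi0.filter (fun π' => π ≠ π'), ∑ d ∈ EM α Pi M π π', hh W (xx M π π' d) ^ 3 := by
    by_contra hcon
    push Not at hcon
    have hBT : (BT T).Nonempty := by
      rw [Finset.nonempty_iff_ne_empty]
      intro he
      rw [hS, he, Finset.sum_empty] at hNS
      linarith
    have h3 : S * (25 * T ^ 2) < (BT T).card * N := by
      rw [hS, Finset.sum_mul, ← nsmul_eq_mul, ← Finset.sum_const]
      refine Finset.sum_lt_sum_of_nonempty hBT fun M hM => ?_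
      rw [mul_comm]
      exact hcon M hM
    have h4 := mul_le_mul_of_nonneg_right (card_BT hT1) hN0.le
    have h5 : N * (25 * T ^ 2) ≤ S * (25 * T ^ 2) := mul_le_mul_of_nonneg_right hNS (by positivity)
    linarith
  obtain ⟨hM0, hMT⟩ := of_mem_BT hM
  refine ⟨M, hM0, by rw [hTdef] at hMT; linarith, ?_⟩
  calc (Q0 : ℝ) * Q ≤ Λ ^ 2 * N := hNQ
    _ ≤ Λ ^ 2 * (25 * T ^ 2 * ∑ π ∈ Pi0, ∑ π' ∈ Pi0.filter (fun π' => π ≠ π'),
        ∑ d ∈ EM α Pi M π π', hh W (xx M π π' d) ^ 3) :=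
        mul_le_mul_of_nonneg_left hMS (by positivity)
    _ = _ := by rw [hTdef]; ring

end

end Vale.Agent.P015.R2.H116
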