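import Vale.Agent.P015.R2.H116.Coup2

/-! Second stage of the coupling theorem. -/

namespace Vale.Agent.P015.R2.H116

open Finset Vale.Agent.P001 Vale.Agent.P006.CLS Vale.Agent.P015.H222
open scoped ComplexConjugate

section

variable {Λ : ℝ} {W : Finset (ℤ × ℤ)} {K Q0 Q : ℕ} {Pi0 Pi : Finset GaussianInt}
  {α : GaussianInt → GaussianInt}

theorem Lvl.norm_mul_ge (h : Lvl Λ Q Pi α) {π π' : GaussianInt} (hπ : π ∈ Pi) (hπ' : π' ∈ Pi) :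
    (Q : ℝ) / 2 ≤ ‖GaussianInt.toComplex π‖ * ‖GaussianInt.toComplex π'‖ := by
  have key : ∀ π ∈ Pi, (Q : ℝ) / 2 ≤ ‖GaussianInt.toComplex π‖ ^ 2 := by
    intro π hπ
    have h1 := h.lower π hπ
    have h2 : ‖GaussianInt.toComplex π‖ ^ 2 = (π.norm : ℝ) := by
      rw [GaussianInt.intCast_real_norm, Complex.normSq_eq_norm_sq]
    rw [h2]
    have h3 : ((Q : ℤ) : ℝ) ≤ ((2 * π.norm : ℤ) : ℝ) := by exact_mod_cast h1
    push_cast at h3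
    linarith
  have h1 := key π hπ
  have h2 := key π' hπ'
  have hQ0 : (0 : ℝ) ≤ (Q : ℝ) / 2 := by positivity
  have h3 : ((Q : ℝ) / 2) ^ 2 ≤ (‖GaussianInt.toComplex π‖ * ‖GaussianInt.toComplex π'‖) ^ 2 := by
    rw [mul_pow, sq ((Q : ℝ) / 2)]
    exact mul_le_mul h1 h2 hQ0 (by positivity)
  exact le_of_sq_le_sq h3 (by positivity)

theorem norm_xx_le (h0 : Lvl Λ Q0 Pi0 α) (h1 : Lvl Λ Q Pi α) {M π π' : GaussianInt}
    {d : GaussianInt × GaussianInt} (hπ : π ∈ Pi0) (hπ' : π' ∈ Pi0) (hd : d ∈ EM α Pi M π π')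
    (hQ0 : 0 < Q0) (hQ : 0 < Q) {m : ℝ} (hm : ‖GaussianInt.toComplex M‖ ≤ m) :
    ‖xx M π π' d‖ ≤ 4 * m / (Q0 * Q) := by
  classical
  rw [EM, Finset.mem_filter, Finset.mem_product] at hd
  have h2 := h0.norm_mul_ge hπ hπ'
  have h3 := h1.norm_mul_ge hd.1.1 hd.1.2
  have hQ0' : (0 : ℝ) < Q0 := by exact_mod_cast hQ0
  have hQ' : (0 : ℝ) < Q := by exact_mod_cast hQ
  rw [xx, norm_div, norm_mul, norm_mul, norm_mul]
  have h4 : (Q0 : ℝ) / 2 * ((Q : ℝ) / 2) ≤ ‖GaussianInt.toComplex π‖ *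
      ‖GaussianInt.toComplex π'‖ * ‖GaussianInt.toComplex d.1‖ * ‖GaussianInt.toComplex d.2‖ := by
    calc _ ≤ (‖GaussianInt.toComplex π‖ * ‖GaussianInt.toComplex π'‖) *
          (‖GaussianInt.toComplex d.1‖ * ‖GaussianInt.toComplex d.2‖) :=
          mul_le_mul h2 h3 (by positivity) (by positivity)
      _ = _ := by ring
  have hm0 : 0 ≤ m := (norm_nonneg _).trans hm
  calc _ ≤ m / ((Q0 : ℝ) / 2 * ((Q : ℝ) / 2)) :=
        div_le_div₀ hm0 hm (by positivity) h4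
    _ = _ := by field_simp; norm_num

/-- the second positivity argument for one pair `(π, π')` -/
theorem pair_bound (hW : Cv W K Λ) (h0 : Lvl Λ Q0 Pi0 α) (h1 : Lvl Λ Q Pi α)
    (hQ0 : 0 < Q0) (hQ : 0 < Q) {M π π' : GaussianInt} (hπ : π ∈ Pi0) (hπ' : π' ∈ Pi0)
    {m t : ℝ} (hm : ‖GaussianInt.toComplex M‖ ≤ m) (hm1 : 1 ≤ m) (hmQ : 16 * m ≤ Q0 * Q)
    (ht : 1 ≤ t) (htQ : 2 * t ≤ Q) (htm : t * Q0 ≤ 4 * m * Q)
    (hK : 16 * Q ^ 2 ≤ K) :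
    (∑ d ∈ EM α Pi M π π', hh W (xx M π π' d) ^ 3) ^ 2 ≤ Λ ^ 9 * (4 * m * Q / (t * Q0)) *
      ∑ d ∈ EM α Pi M π π', ∑ d' ∈ EM α Pi M π π',
        (if ‖xx M π π' d - xx M π π' d'‖ * (Q : ℝ) ^ 2 ≤ 2 * t then
          hh W (xx M π π' d) * hh W (xx M π π' d - xx M π π' d') else 0) := by
  classical
  have hΛ := hW.ten
  have hQ0' : (0 : ℝ) < Q0 := by exact_mod_cast hQ0
  have hQ' : (0 : ℝ) < Q := by exact_mod_cast hQ
  have hQ1 : (1 : ℝ) ≤ Q := by exact_mod_cast hQ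
  have ht0 : 0 < t := by linarith
  have hK' : 16 * (Q : ℝ) ^ 2 ≤ K := by exact_mod_cast hK
  set r : ℝ := (Q : ℝ) ^ 2 / t with hr
  set δ : ℝ := 4 * m / (Q0 * Q) with hδ
  have hr2 : 2 ≤ r := by
    rw [hr, le_div_iff₀ ht0]
    nlinarith
  have hrK : 16 * r ≤ K := by
    have h3 : r ≤ (Q : ℝ) ^ 2 := by
      rw [hr, div_le_iff₀ ht0]
      have : 0 ≤ (Q : ℝ) ^ 2 := by positivity
      nlinarith
    linarith
  have hδ4 : δ ≤ 1 / 4 := by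
    rw [hδ, div_le_div_iff₀ (by positivity) (by norm_num)]
    linarith
  have hrδe : r * δ = 4 * m * Q / (t * Q0) := by
    rw [hr, hδ]
    field_simp
  have hrδ : 1 ≤ r * δ := by
    rw [hrδe, le_div_iff₀ (by positivity)]
    linarith
  have h := pos_ball hW 1 hr2 hrK hδ4 hrδ (EM α Pi M π π') (fun d => xx M π π' d)
    (fun d hd => norm_xx_le h0 h1 hπ hπ' hd hQ0 hQ hm) (fun d => hh W (xx M π π' d))
    (fun d _ => hh_nonneg W _)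
  rw [hrδe] at h
  have e1 : ∑ d ∈ EM α Pi M π π', hh W (xx M π π' d) * hh W (xx M π π' d) ^ (1 + 1) =
      ∑ d ∈ EM α Pi M π π', hh W (xx M π π' d) ^ 3 :=
    Finset.sum_congr rfl fun d _ => by ring
  rw [e1] at h
  refine h.trans (mul_le_mul_of_nonneg_left ?_ (by positivity))
  rw [Finset.sum_filter, Finset.sum_product]
  refine Finset.sum_le_sum fun d _ => Finset.sum_le_sum fun d' _ => ?_
  by_cases hc : ‖xx M π π' d - xx M π π' d'‖ ≤ 2 / r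
  · have hc' : ‖xx M π π' d - xx M π π' d'‖ * (Q : ℝ) ^ 2 ≤ 2 * t := by
      calc _ ≤ 2 / r * (Q : ℝ) ^ 2 := mul_le_mul_of_nonneg_right hc (by positivity)
        _ = 2 * t := by rw [hr]; field_simp
    rw [if_pos hc, if_pos hc', pow_one]
    refine mul_le_mul_of_nonneg_right ?_ (hh_nonneg W _)
    exact mul_le_of_le_one_right (hh_nonneg W _) (hh_le_one W _)
  · rw [if_neg hc]
    split_ifs
    · exact mul_nonneg (hh_nonneg W _) (hh_nonneg W _)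
    · exact le_rfl

theorem num_final {Λ C Q0 t : ℝ} {c : ℕ} (hΛ : 10 ≤ Λ) (hC : 1 ≤ C) (hCc : C ≤ Λ ^ c)
    (ht : t = Λ ^ (c + 163)) (hQ0 : Λ ^ (3 * c + 497) ≤ Q0)
    (h : Q0 * t ≤ 160000 * C * Λ ^ 148 * (Λ ^ 8 * Q0 + Λ ^ 16 * t ^ 3)) : False := by
  have hΛ0 : 0 < Λ := by linarith
  have ht0 : 0 < t := by rw [ht]; positivity
  have hQ0' : 0 < Q0 := lt_of_lt_of_le (by positivity) hQ0
  have h1 : 160000 * C * Λ ^ 148 ≤ Λ ^ (c + 154) := by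
    have h2 : (160000 : ℝ) ≤ Λ ^ 6 := by
      calc (160000 : ℝ) ≤ 10 ^ 6 := by norm_num
        _ ≤ Λ ^ 6 := pow_le_pow_left₀ (by norm_num) hΛ 6
    calc 160000 * C * Λ ^ 148 ≤ Λ ^ 6 * Λ ^ c * Λ ^ 148 := by
          refine mul_le_mul_of_nonneg_right ?_ (by positivity)
          exact mul_le_mul h2 hCc (by linarith) (by positivity)
      _ = Λ ^ (c + 154) := by rw [← pow_add, ← pow_add]; congr 1; omega
  have h3 : Q0 * t ≤ Λ ^ (c + 162) * Q0 + Λ ^ (c + 170) * t ^ 3 := by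
    calc Q0 * t ≤ 160000 * C * Λ ^ 148 * (Λ ^ 8 * Q0 + Λ ^ 16 * t ^ 3) := h
      _ ≤ Λ ^ (c + 154) * (Λ ^ 8 * Q0 + Λ ^ 16 * t ^ 3) :=
        mul_le_mul_of_nonneg_right h1 (by positivity)
      _ = (Λ ^ (c + 154) * Λ ^ 8) * Q0 + (Λ ^ (c + 154) * Λ ^ 16) * t ^ 3 := by ring
      _ = _ := by rw [← pow_add, ← pow_add]
  have h4 : 10 * Λ ^ (c + 162) ≤ t := by
    rw [ht, show c + 163 = (c + 162) + 1 by omega, pow_succ, mul_comm]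
    exact mul_le_mul_of_nonneg_left hΛ (by positivity)
  have h5 : Q0 * t ≤ 2 * (Λ ^ (c + 170) * t ^ 3) := by
    have h10 : Λ ^ (c + 162) * Q0 ≤ t / 10 * Q0 :=
      mul_le_mul_of_nonneg_right (by linarith only [h4]) hQ0'.le
    have h11 : 0 ≤ Λ ^ (c + 170) * t ^ 3 := by positivity
    have h12 : 0 < Q0 * t := mul_pos hQ0' ht0
    linarith only [h3, h10, h11, h12]
  have h6 : Q0 ≤ 2 * Λ ^ (c + 170) * t ^ 2 := by
    have : Q0 * t ≤ (2 * Λ ^ (c + 170) * t ^ 2) * t := by linarith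
    exact le_of_mul_le_mul_right this ht0
  have h7 : 2 * Λ ^ (c + 170) * t ^ 2 = 2 * Λ ^ (3 * c + 496) := by
    have e : (c + 170) + (c + 163) * 2 = 3 * c + 496 := by ring
    rw [ht, ← pow_mul, mul_assoc, ← pow_add, e]
  have h8 : Λ ^ (3 * c + 497) = Λ ^ (3 * c + 496) * Λ := pow_succ _ _
  have h9 : 0 < Λ ^ (3 * c + 496) := by positivity
  rw [h7] at h6
  rw [h8] at hQ0
  nlinarith only [h6, hQ0, h9, hΛ]

/-- summation over the pairs -/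
theorem sum_bound {A : Finset GaussianInt} {q G : ℝ} (hA : (A.card : ℝ) ≤ q)
    (f g : GaussianInt → GaussianInt → ℝ)
    (h : ∀ π ∈ A, ∀ π' ∈ A, f π π' ^ 2 ≤ G * g π π') :
    (∑ π ∈ A, ∑ π' ∈ A.filter (fun π' => π ≠ π'), f π π') ^ 2 ≤
      q ^ 2 * (G * ∑ π ∈ A, ∑ π' ∈ A.filter (fun π' => π ≠ π'), g π π') := by
  have hq : 0 ≤ q := (Nat.cast_nonneg _).trans hA
  have h4 : ∀ π ∈ A, (∑ π' ∈ A.filter (fun π' => π ≠ π'), f π π') ^ 2 ≤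
      q * (G * ∑ π' ∈ A.filter (fun π' => π ≠ π'), g π π') := by
    intro π hπ
    refine (sq_sum_le_card_mul_sum_sq).trans ?_
    have h5 : (((A.filter (fun π' => π ≠ π')).card : ℕ) : ℝ) ≤ q :=
      le_trans (by exact_mod_cast Finset.card_filter_le _ _) hA
    refine mul_le_mul h5 ?_ (Finset.sum_nonneg fun _ _ => by positivity) hq
    rw [Finset.mul_sum]
    exact Finset.sum_le_sum fun π' hπ' => h π hπ π' (Finset.mem_filter.1 hπ').1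
  calc _ ≤ A.card * ∑ π ∈ A, (∑ π' ∈ A.filter (fun π' => π ≠ π'), f π π') ^ 2 :=
        sq_sum_le_card_mul_sum_sq
    _ ≤ q * (q * (G * ∑ π ∈ A, ∑ π' ∈ A.filter (fun π' => π ≠ π'), g π π')) := by
      refine mul_le_mul hA ?_ (Finset.sum_nonneg fun _ _ => by positivity) hq
      rw [Finset.mul_sum, Finset.mul_sum]
      exact Finset.sum_le_sum h4
    _ = _ := by ring

theorem nat_facts {K Q0 Q : ℕ} (hQ0 : 100 ≤ Q0) (hQ3 : Q0 ^ 3 ≤ Q) (hQ4 : Q ^ 4 ≤ K) :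
    Q0 ≤ Q ∧ Q0 ^ 2 ≤ Q ∧ 2 * Q0 < Q ∧ 16 * (Q0 * Q) ≤ K ∧ 16 * Q ^ 2 ≤ K ∧ 1 ≤ K := by
  have h1 : Q0 ≤ Q := (Nat.le_self_pow (by norm_num) _).trans hQ3
  have h2 : Q0 ^ 2 ≤ Q := (Nat.pow_le_pow_right (by omega) (by norm_num)).trans hQ3
  have h3 : 2 * Q0 < Q := by nlinarith
  have hQ : 100 ≤ Q := hQ0.trans h1
  have h5 : 16 * Q ^ 2 ≤ K := by
    refine le_trans ?_ hQ4
    rw [show Q ^ 4 = Q ^ 2 * Q ^ 2 by ring]
    refine Nat.mul_le_mul_right _ ?_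
    nlinarith
  have h4 : 16 * (Q0 * Q) ≤ K := by
    refine le_trans ?_ h5
    rw [sq]
    exact Nat.mul_le_mul_left _ (Nat.mul_le_mul_right _ h1)
  exact ⟨h1, h2, h3, h4, h5, by nlinarith⟩

/-- **Coupling theorem.** -/
theorem coupling : ∃ a : ℕ, ∀ (Λ : ℝ) (W : Finset (ℤ × ℤ)) (K Q0 Q : ℕ), Cv W K Λ →
    ∀ (Pi0 Pi : Finset GaussianInt) (α : GaussianInt → GaussianInt), Lvl Λ Q0 Pi0 α →
    Lvl Λ Q Pi α → Λ ^ a ≤ Q0 → Q0 ^ 3 ≤ Q → Q ^ 4 ≤ K →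
    (W.card : ℝ) * Pi0.card * Pi.card ≤
      Λ * ∑ π ∈ Pi0, ∑ ρ ∈ Pi, ‖hc W (th α ρ - th α π)‖ → False := by
  obtain ⟨C, hC, hub⟩ := H634.ub
  obtain ⟨c, hc⟩ : ∃ c : ℕ, C ≤ 10 ^ c := by
    obtain ⟨c, hc⟩ := pow_unbounded_of_one_lt C (show (1 : ℝ) < 10 by norm_num)
    exact ⟨c, hc.le⟩
  refine ⟨3 * c + 497, fun Λ W K Q0 Q hW Pi0 Pi α h0 h1 hQ0a hQ3 hQ4 hcoup => ?_⟩
  have hΛ := hW.ten
  have hΛ0 : 0 < Λ := by linarith
  have hΛ1 : 1 ≤ Λ := by linarith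
  have hCc : C ≤ Λ ^ c := hc.trans (pow_le_pow_left₀ (by norm_num) hΛ c)
  have hpw : ∀ a b : ℕ, a ≤ b → Λ ^ a ≤ Λ ^ b := fun a b h => pow_le_pow_right₀ hΛ1 h
  have hQ0big : Λ ^ 497 ≤ Q0 := (hpw 497 _ (by omega)).trans hQ0a
  have h100 : (100 : ℝ) ≤ Λ ^ 2 := by nlinarith only [hΛ]
  have hQ0r : (100 : ℝ) ≤ Q0 := h100.trans ((hpw 2 497 (by norm_num)).trans hQ0big)
  have hQ0n : 100 ≤ Q0 := by exact_mod_cast hQ0r
  have hQ0pos : (0 : ℝ) < Q0 := by linarith only [hQ0r]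
  obtain ⟨hQge, hQ2, h2Q, h16, h16', hK1⟩ := nat_facts hQ0n hQ3 hQ4
  have hQ2r : (Q0 : ℝ) ^ 2 ≤ Q := by exact_mod_cast hQ2
  have hQger : (Q0 : ℝ) ≤ Q := by exact_mod_cast hQge
  have hQpos : (0 : ℝ) < Q := by linarith only [hQger, hQ0pos]
  have hne : W.Nonempty := by
    rw [← Finset.card_pos]
    by_contra hcon
    have h2 : W.card = 0 := by omega
    have h3 := hW.size
    rw [h2] at h3
    simp only [Nat.cast_zero, mul_zero] at h3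
    have h4 : (1 : ℝ) ≤ K := by exact_mod_cast hK1
    linarith only [h3, h4]
  have h22 : 4 * Λ ^ 27 ≤ Λ ^ 28 := by
    rw [pow_succ Λ 27]
    have : 0 < Λ ^ 27 := by positivity
    nlinarith only [this, hΛ]
  have h23 : Λ ^ 28 < Q0 :=
    lt_of_lt_of_le (pow_lt_pow_right₀ (by linarith only [hΛ]) (by norm_num)) hQ0big
  have hT : 4 * Λ ^ 27 < Q0 := lt_of_le_of_lt h22 h23
  obtain ⟨M, hM0, hMT, hMS⟩ := stage1 hW hne h0 h1 h2Q hT h16 hcoup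
  obtain ⟨t, ht⟩ : ∃ t : ℝ, t = Λ ^ (c + 163) := ⟨_, rfl⟩
  have ht1 : 1 ≤ t := by rw [ht]; exact one_le_pow₀ hΛ1
  have ht0 : 0 < t := by linarith only [ht1]
  have hCt : C * t ≤ Q0 := by
    calc C * t ≤ Λ ^ c * Λ ^ (c + 163) := by
          rw [ht]; exact mul_le_mul_of_nonneg_right hCc (by positivity)
      _ = Λ ^ (c + (c + 163)) := by rw [← pow_add]
      _ ≤ Λ ^ (3 * c + 497) := hpw _ _ (by omega)
      _ ≤ Q0 := hQ0a
  have htQ0 : t ≤ Q0 := le_trans (by nlinarith only [hC, ht0]) hCt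
  have hCQ : C ≤ Q := by
    refine le_trans ?_ (hCt.trans hQger)
    nlinarith only [hC, ht1]
  have hCK : C * (Q : ℝ) ^ 3 ≤ K := by
    have h3 : (Q : ℝ) ^ 4 ≤ K := by exact_mod_cast hQ4
    calc C * (Q : ℝ) ^ 3 ≤ Q * (Q : ℝ) ^ 3 := mul_le_mul_of_nonneg_right hCQ (by positivity)
      _ = (Q : ℝ) ^ 4 := by ring
      _ ≤ K := h3
  have hCM : C * ‖GaussianInt.toComplex M‖ ≤ Q0 := by
    calc C * ‖GaussianInt.toComplex M‖ ≤ Λ ^ c * Λ ^ 28 :=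
          mul_le_mul hCc (hMT.trans h22) (norm_nonneg _) (by positivity)
      _ = Λ ^ (c + 28) := by rw [← pow_add]
      _ ≤ Λ ^ (3 * c + 497) := hpw _ _ (by omega)
      _ ≤ Q0 := hQ0a
  have hU := hub h0 h1 (B := Λ ^ 8) (one_le_pow₀ hΛ1) (H210.reg hW) ht1 hCt hQ3 hCK hM0 hCM
  have hm1 : (1 : ℝ) ≤ 4 * Λ ^ 27 := by
    have : (1 : ℝ) ≤ Λ ^ 27 := one_le_pow₀ hΛ1
    linarith only [this]
  have hmQ : 16 * (4 * Λ ^ 27) ≤ (Q0 : ℝ) * Q := by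
    nlinarith only [hT, hQ0r, hQger, hm1]
  have htQ : 2 * t ≤ Q := by nlinarith only [htQ0, hQ2r, hQ0r]
  have htm : t * Q0 ≤ 4 * (4 * Λ ^ 27) * Q := by
    nlinarith only [htQ0, hQ2r, hm1, hQ0pos, hQpos, ht0]
  obtain ⟨G, hG⟩ : ∃ G : ℝ, G = Λ ^ 9 * (4 * (4 * Λ ^ 27) * Q / (t * Q0)) := ⟨_, rfl⟩
  have hG0 : 0 ≤ G := by rw [hG]; positivity
  have hPc : (Pi0.card : ℝ) ≤ Q0 := by exact_mod_cast h0.card_le
  have hSS := sum_bound (G := G) hPc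
    (fun π π' => ∑ d ∈ EM α Pi M π π', hh W (xx M π π' d) ^ 3)
    (fun π π' => ∑ d ∈ EM α Pi M π π', ∑ d' ∈ EM α Pi M π π',
      (if ‖xx M π π' d - xx M π π' d'‖ * (Q : ℝ) ^ 2 ≤ 2 * t then
        hh W (xx M π π' d) * hh W (xx M π π' d - xx M π π' d') else 0))
    (fun π hπ π' hπ' => by
      rw [hG]
      exact pair_bound hW h0 h1 (by omega) (by omega) hπ hπ' hMT hm1 hmQ ht1 htQ htm h16')
  have hfin : ((Q0 : ℝ) * Q) ^ 2 ≤ (100 * Λ ^ 56) ^ 2 * ((Q0 : ℝ) ^ 2 *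
      (G * (C * (Λ ^ 8 * (Q0 * Q) + (Λ ^ 8) ^ 2 * t ^ 3 * Q)))) := by
    refine (pow_le_pow_left₀ (by positivity) hMS 2).trans ?_
    rw [mul_pow (100 * Λ ^ 56)]
    refine mul_le_mul_of_nonneg_left (hSS.trans ?_) (by positivity)
    exact mul_le_mul_of_nonneg_left (mul_le_mul_of_nonneg_left hU hG0) (by positivity)
  refine num_final (Q0 := Q0) (t := t) hΛ hC hCc ht hQ0a ?_
  have hpos : (0 : ℝ) < Q0 * (Q : ℝ) ^ 2 / t := by positivity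
  refine le_of_mul_le_mul_right ?_ hpos
  calc Q0 * t * (Q0 * (Q : ℝ) ^ 2 / t) = ((Q0 : ℝ) * Q) ^ 2 := by field_simp
    _ ≤ _ := hfin
    _ = 160000 * C * Λ ^ 148 * (Λ ^ 8 * Q0 + Λ ^ 16 * t ^ 3) * (Q0 * (Q : ℝ) ^ 2 / t) := by
      rw [hG]
      field_simp
      ring

end

end Vale.Agent.P015.R2.H116
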