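import Vale.Agent.P015.R2.H222.Quad

/-! Shared definitions for the stretched exponential lower bound. -/

namespace Vale.Agent.P015.R2.H116

open Finset Vale.Agent.P006.CLS Vale.Agent.P015.H222

/-- curve-like sets, all parameters in one `Λ` -/
structure Cv (W : Finset (ℤ × ℤ)) (K : ℕ) (Λ : ℝ) : Prop where
  ten : 10 ≤ Λ
  c0 : C0 ≤ Λ
  sub : ∀ w ∈ W, w ∈ box K
  size : (K : ℝ) ≤ Λ * W.card
  up : ∀ z : ℤ × ℤ, ∀ m : ℕ, 1 ≤ m → m ≤ K →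
    ((W.filter (fun w => w - z ∈ box m)).card : ℝ) ≤ Λ * m
  low : ∀ w ∈ W, ∀ m : ℕ, 8 * m ≤ K →
    (m : ℝ) ≤ Λ * ((W.filter (fun u => u - w ∈ box m)).card : ℝ)

/-- grid cell of side `s` -/
def cell (s : ℕ) (w : ℤ × ℤ) : ℤ × ℤ := (w.1 / s, w.2 / s)

/-- sum over the cells of the squares of the exponential sums -/
noncomputable def Hs (s : ℕ) (W : Finset (ℤ × ℤ)) (x y : ℝ) : ℝ :=
  ∑ c ∈ W.image (cell s), ‖hg (W.filter (fun w => cell s w = c)) x y‖ ^ 2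

/-- pairs of points of `W` in the same cell -/
def Yp (s : ℕ) (W : Finset (ℤ × ℤ)) : Finset ((ℤ × ℤ) × (ℤ × ℤ)) :=
  (W ×ˢ W).filter (fun y => cell s y.1 = cell s y.2)

/-- exponential sum at a complex frequency: `∑ e(Re (s w))` -/
noncomputable def hc (W : Finset (ℤ × ℤ)) (s : ℂ) : ℂ := hg W s.re (-s.im)

/-- normalised spectrum -/
noncomputable def hh (W : Finset (ℤ × ℤ)) (s : ℂ) : ℝ := ‖hc W s‖ ^ 2 / (W.card : ℝ) ^ 2

/-- localising kernels on the frequencies with denominator `L` -/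
structure Kern (L : ℕ) (r : ℝ) (φ : ℝ → ℝ → ℝ) : Prop where
  nonneg : ∀ x y, 0 ≤ φ x y
  le_one : ∀ x y, φ x y ≤ 1
  zero : φ 0 0 = 1
  supp : ∀ x y : ℝ, φ x y ≠ 0 → ∃ k l : ℤ, |x - k| < 1 / r ∧ |y - l| < 1 / r
  fourier : ∃ (S : Finset (ℤ × ℤ)) (b : ℤ × ℤ → ℝ), (∀ u, 0 ≤ b u) ∧
    (∀ u ∈ box ⌊r / 8⌋₊, u ∈ S ∧ 1 / (16 * r ^ 2) ≤ b u) ∧
    ∀ A B : ℤ, (φ ((A : ℝ) / L) ((B : ℝ) / L) : ℂ) =
      ∑ u ∈ S, (b u : ℂ) * e2 ((A : ℝ) / L) ((B : ℝ) / L) u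

/-- the frequency `α π / π` -/
noncomputable def th (α : GaussianInt → GaussianInt) (π : GaussianInt) : ℂ :=
  GaussianInt.toComplex (α π) / GaussianInt.toComplex π

/-- a level: Gaussian primes of norm in `[Q / 2, Q]`, with distinct norms and numerators -/
structure Lvl (Λ : ℝ) (Q : ℕ) (Pi : Finset GaussianInt) (α : GaussianInt → GaussianInt) : Prop where
  prime : ∀ π ∈ Pi, Prime π
  lower : ∀ π ∈ Pi, (Q : ℤ) ≤ 2 * π.norm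
  upper : ∀ π ∈ Pi, π.norm ≤ Q
  inj : ∀ π ∈ Pi, ∀ π' ∈ Pi, π.norm = π'.norm → π = π'
  num : ∀ π ∈ Pi, ¬ π ∣ α π
  many : (Q : ℝ) ≤ Λ * Pi.card

/-- abstract weighted regularity of a spectrum `h` -/
def Reg (h : ℂ → ℝ) (K : ℕ) (B : ℝ) : Prop := (∀ s, 0 ≤ h s) ∧ (∀ s, h s ≤ 1) ∧
  (∀ s, h (-s) = h s) ∧
  ∀ (J : Finset GaussianInt) (s : GaussianInt → ℂ) (δ₁ δ₂ : ℝ), (∀ i ∈ J, ‖s i‖ ≤ δ₁) →
    (∀ i ∈ J, ∀ j ∈ J, i ≠ j → δ₂ ≤ ‖s i - s j‖) →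
    16 ≤ K * δ₂ → δ₂ ≤ δ₁ → δ₁ ≤ 1 / 32 → ∑ i ∈ J, h (s i) ≤ B * (δ₁ / δ₂)

/-- the point `M / (π π' ρ ρ')` -/
noncomputable def xx (M π π' : GaussianInt) (d : GaussianInt × GaussianInt) : ℂ :=
  GaussianInt.toComplex M / (GaussianInt.toComplex π * GaussianInt.toComplex π' *
    GaussianInt.toComplex d.1 * GaussianInt.toComplex d.2)

open Classical in
/-- pairs of primes of `Pi` whose quadruple difference is `M / (π π' ρ ρ')` modulo `ℤ[i]` -/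
noncomputable def EM (α : GaussianInt → GaussianInt) (Pi : Finset GaussianInt)
    (M π π' : GaussianInt) : Finset (GaussianInt × GaussianInt) :=
  (Pi ×ˢ Pi).filter (fun d => d.1 ≠ d.2 ∧ ∃ z : GaussianInt,
    (th α d.1 - th α π) - (th α d.2 - th α π') - GaussianInt.toComplex z = xx M π π' d)

end Vale.Agent.P015.R2.H116
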